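import Vale.Agent.P167.H436.ND.Defs
import Vale.Agent.P167.H192.TA.Str

/-!
# P167, general `q`, block Q-ND: a piece which visits two rings crosses the gap between them

`xc_run`: general form; `s_cross`: the literal statement.
-/

namespace Vale.Agent.P167.H192.ND

open Finset Relation Vale.Agent.P145.FB Vale.Agent.P167 Vale.Agent.P167.BR Vale.Agent.P167.H192.TA
open Vale.Agent.P167.H632 (pr cs nm_le le_nm)
open Vale.Agent.P167.H436.ND (Zg Zns Win)

variable {ω : Cfg} {D : Finset (ℤ × ℤ)} {b : ℤ × ℤ} {r R : ℤ}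

/-- The initial part of a path stays above the flat side until it reaches distance `R`. -/
theorem pw_flat {G : Set (ℤ × ℤ)} (hG : ∀ v ∈ G, b.1 - R ≤ v.1 → v.1 < b.1 + R → b.2 - R ≤ v.2 →
    v.2 < b.2 + R → b.2 ≤ v.2) {y y' : ℤ × ℤ} (h : Pw G y y')
    (h2 : R ≤ nm (y' - b)) :
    ∃ y1, Pw (G ∩ {v | b.2 ≤ v.2}) y y1 ∧ R ≤ nm (y1 - b) := by
  have key : (∃ y1, Pw (G ∩ {v | b.2 ≤ v.2}) y y1 ∧ R ≤ nm (y1 - b)) ∨
      (Pw (G ∩ {v | b.2 ≤ v.2}) y y' ∧ nm (y' - b) < R) := by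
    clear h2
    induction h with
    | refl =>
      rcases lt_or_ge (nm (y - b)) R with h | h
      · exact Or.inr ⟨ReflTransGen.refl, h⟩
      · exact Or.inl ⟨y, ReflTransGen.refl, h⟩
    | @tail u v _ huv ih =>
      rcases ih with h | ⟨h3, h4⟩
      · exact Or.inl h
      · have hs : PStep (G ∩ {v | b.2 ≤ v.2}) u v := by
          obtain ⟨p1, p2, p3⟩ := huv
          refine ⟨p1, p2, p3, ?_⟩
          have h5 := (nm_le (v := u - b) (R := R - 1)).1 (by omega)
          simp only [Prod.fst_sub, Prod.snd_sub] at h5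
          refine hG _ p3 ?_ ?_ ?_ ?_ <;> dsimp only <;> omega
        rcases lt_or_ge (nm (v - b)) R with h | h
        · exact Or.inr ⟨h3.tail hs, h⟩
        · exact Or.inl ⟨v, h3.tail hs, h⟩
  rcases key with h | ⟨-, h⟩
  · exact h
  · omega

/-- **General form**: a path of colour `c` in the domain, from distance `≤ r` to distance `≥ R`. -/
theorem xc_path {c : Bool} (hF : Flt D b R) (hrR : r ≤ R) {y y' : ℤ × ℤ}
    (hy : b.2 ≤ y.2) (hp : (y.1 + y.2) % 2 = pr c) (h : Pw (cs c ω ∩ ↑D) y y') (h1 : nm (y - b) ≤ r)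
    (h2 : R ≤ nm (y' - b)) : ω ∈ Xc c b r R := by
  obtain ⟨y1, g1, g2⟩ := pw_flat (b := b) (R := R) (fun v hv k1 k2 k3 k4 =>
    (hF v k1 k2 k3 k4).1 (Finset.mem_coe.1 hv.2)) h h2
  obtain ⟨y0, y2, k1, k2, k3, k4, k5⟩ := cut_dq hrR hy (fun v hv => hv.2) g1 h1 g2
  refine ⟨y0, y2, k2, ?_, k3, k4.mono ?_, k5⟩
  · rw [← k1.parity, hp]
  · rintro v ⟨hv1, hv2⟩
    exact ⟨hv1.1.1, hv2⟩

/-- **A piece with an edge inside and an edge outside crosses with both colours.** -/
theorem xc_piece {A : Finset Ed} (hA : A ∈ pcs ω D) (hF : Flt D b R) (hrR : r ≤ R) {e e' : Ed}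
    (he : e ∈ A) (he' : e' ∈ A) (h1 : ∀ c, nm (sc c e - b) ≤ r ∧ b.2 ≤ (sc c e).2)
    (h2 : ∀ c, R ≤ nm (sc c e' - b)) (c : Bool) : ω ∈ Xc c b r R := by
  have h3 : EqvGen (Nxt ω D) e e' := by
    rw [eq_piece_of_mem hA he] at he'
    exact (mem_piece.1 he').2
  obtain ⟨k, h4⟩ := eqvGen_iff.1 h3
  have h5 : Pw (cs c ω ∩ ↑D) (sc c e) (sc c e') := by
    rcases h4 with h4 | h4
    · exact run_sc c h4
    · exact (run_sc c h4).symm
  exact xc_path hF hrR (h1 c).2 (sc_par c e) h5 (h1 c).1 (h2 c)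

/-- The sites of an edge of the half box. -/
theorem site_in {e : Ed} {a : ℤ} (h : e ∈ eds (hbox b a)) (c : Bool) :
    nm (sc c e - b) ≤ a ∧ b.2 ≤ (sc c e).2 := by
  have h1 := sc_hdv c e
  have h2 := sc_tlv c e
  rw [nm_le]
  simp only [Prod.fst_sub, Prod.snd_sub]
  rcases mem_eds.1 h with h | h <;>
    · simp only [hbox, Finset.mem_product, Finset.mem_Icc] at h
      omega

/-- The sites of an edge of the zone are not in the inner half box. -/
theorem site_out {e : Ed} {ρ σ : ℤ} (h : e ∈ eds (Zg b ρ σ)) (c : Bool) : ρ ≤ nm (sc c e - b) := by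
  have h1 := sc_hdv c e
  have h2 := sc_tlv c e
  rw [le_nm]
  simp only [Prod.fst_sub, Prod.snd_sub]
  rcases mem_eds.1 h with h | h <;>
    · simp only [Zg, hbox, Finset.mem_sdiff, Finset.mem_product, Finset.mem_Icc] at h
      omega

theorem eds_zg {e : Ed} {ρ σ : ℤ} (h : e ∈ eds (Zg b ρ σ)) : e ∈ eds (hbox b σ) := by
  rcases mem_eds.1 h with h | h
  · exact mem_eds.2 (Or.inl (Finset.sdiff_subset h))
  · exact mem_eds.2 (Or.inr (Finset.sdiff_subset h))

/-- **(CLS-c)** -/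
theorem s_cross : H436.ND.S_cross := by
  unfold H436.ND.S_cross
  rintro n q D l R hW m ρ σ hS ω A hA i j hij ⟨i', hi', e, he, he1⟩ ⟨j', hj', e', he', he1'⟩ c
  have h0 : σ i ≤ ρ j := by
    have := hS.step i j (by rw [Fin.lt_def]; omega)
    omega
  have h1 : σ i' ≤ σ i := by
    rcases (show i' ≤ i from hi').eq_or_lt with h | h
    · rw [h]
    · have h1 := hS.step i' i h
      have h2 := hS.wid i
      omega
  have h2 : ρ j ≤ ρ j' := by
    rcases (show j ≤ j' from hj').eq_or_lt with h | h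
    · rw [h]
    · have h1 := hS.step j j' h
      have h2 := hS.wid j
      omega
  have h3 := hS.top j
  have h4 := hS.wid j
  refine xc_piece hA (R := ρ j) (r := σ i) ?_ h0 he he' (fun c => ?_) (fun c => ?_) c
  · intro v k1 k2 k3 k4
    exact hW.flat v (by omega) (by omega) (by omega) (by omega)
  · have h6 := site_in (eds_zg he1) c
    exact ⟨by omega, h6.2⟩
  · have h6 := site_out he1' c
    omega

end Vale.Agent.P167.H192.ND
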